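import Vale.Agent.P236JB.Tab
import Vale.Agent.P236JB.Z.B1

/-!
# P236JB / C : checks of the tables of bytes (generated)
-/

set_option maxRecDepth 100000

namespace Vale.Agent.P236JB.Z

open Vale.Agent.P236KE Vale.Agent.P236JL

noncomputable def cg1 : CG := ⟨(nat_lit 111), (nat_lit 0xf0e0d0c0b0b0b0a0a0a0a0a090909090909090808080808080807070707070707060606060606060606050505050505050505040404040404040404040404030303030303030303030303020202020202020202020202010101010101010101010101000000000000000000000000),
  (nat_lit 0x201000302010000040302010100000403020101000004030201010000050403020201010000050403020201010000060504030302020101000000060504030302020101000000060504030302020101000000060504030302020101000000060504030302020101000000),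
  (nat_lit 0x100000000010001000000000100010000000001000100000000010001000100000000010001000100000000010001000100020100000000010001000100020100000000010001000100020100000000010001000100020100000000010001000100020100), (nat_lit 0),
  (DL.cons (nat_lit 0x7c992e4b725b92800000000000000000000000000000000) (nat_lit 512)
    (DL.cons (nat_lit 0x5c96dc96dc96df92da000000000000000) (nat_lit 256)
    (DL.cons (nat_lit 0x7c99000000000000000000000000000000000000000000000000000000000000000000000000005c96dc96d8000000000000000000000000000000000000000000000000000000000000000000000001f25b7e4a0000000) (nat_lit 128)
    (DL.cons (nat_lit 0x2e4b700000000000000000000000000000000000005c96d000000000000000000000000000000000000496dc000000000000000000000000000000000001f25a0000000000000000000000000000000000016fc8000) (nat_lit 64)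
    (DL.cons (nat_lit 0x780000000000000000002e480000000000000000025a0000000000000000005c9000000000000000000c940000000000000000049600000000000000000392000000000000000001f0000000000000000001780000000000000000016c0000000000000000016c0) (nat_lit 32)
    (DL.cons (nat_lit 0x400000000490000000002c0000000003000000000250000000019000000000580000000006000000000c000000000280000000049000000000d0000000030000000000d00000000180000000025000000001400000000600000000014000000003000000000140000000018) (nat_lit 16)
    (DL.cons (nat_lit 0x30000400000800002800020000020000400002000008000100000200005000040000040000800008000090000200005000040000040000800008000200009000008000080001000040000200000800010000300004000048000100002800020000800001000028000100004) (nat_lit 8)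
    (DL.cons (nat_lit 0x402000000080000100200000004000010040200000400000010080000080400000008000000080400000008000000080400000008000000080400000000100800000804000000100804020000040000001004020000000004000010040200000010080400100402000010080402) (nat_lit 4)
    (DL.cons (nat_lit 0x4020000040000000002000402040002000402000204000002000000020004000004000004020004000004000004020004000004000004020004000004020000000200040000020000040200020400000200040200000402040002000402000402000004000004020004000004020) (nat_lit 2)
    (DL.cons (nat_lit 0x80008000800080008080008000808000008000800000808000800080800000800080000080800000800080000080800000800080000080800000800080008000808000008080008000800080000080800000800080008000808000008080008000800080000080800000800080) (nat_lit 1)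
    DL.nil))))))))))⟩

theorem g1 : cG 1 cg1 bs1.dc = true := by decide +kernel
theorem w1_0 : rgC (cW 1 cg1 up1) 0 1 = true := by decide +kernel
theorem w1_2 : rgC (cW 1 cg1 up1) 2 2 = true := by decide +kernel

theorem rW1 : Rg (cW 1 cg1 up1) 0 5 :=
  .cons 0 1 w1_0 <|
  .cons 2 2 w1_2 <|
  .nil _ _

theorem tabW1 [Fact (Nat.Prime 3)] : TabW 1 cg1 bs1.dc bs1.up :=
  tabW_of g1 rW1 (by decide +kernel)

end Vale.Agent.P236JB.Z
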