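import Vale.Agent.P236JB.Tab
import Vale.Agent.P236JB.Z.B12

/-!
# P236JB / C : checks of the tables of bytes (generated)
-/

set_option maxRecDepth 100000

namespace Vale.Agent.P236JB.Z

open Vale.Agent.P236KE Vale.Agent.P236JL

noncomputable def cg12 : CG := ⟨(nat_lit 123), (nat_lit 0x21201f1e1d1c1b1a1919181817171616151514141313121211111010100f0f0f0e0e0e0d0d0d0c0c0c0b0b0b0a0a0a09090909090908080808080808070707070707070606060606060605050505050505040404040404040303030303030303020202020202020202010101010101010101000000000000000000),
  (nat_lit 0x1000100010001000100010001000100010002010002010002010002010002010002010002010004030201000004030201010000040302010100000403020101000004030201010000040302010100000504030201010000050403020201010000050403020201010000050403020201010000),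
  (nat_lit 0x10000000001000100000000010001000000000100010000000001000100000000010001000000000001000100000000010001000100000000010001000100000000010001000100), (nat_lit 0),
  (DL.cons (nat_lit 0x7fcccccccccc99326480000000000000000000000000000000000000000) (nat_lit 512)
    (DL.cons (nat_lit 0x49932649725b92dc96e4b60000000000000000000) (nat_lit 256)
    (DL.cons (nat_lit 0x7fcccc800000000000000000000000000000000000000000000000000000000000000000000000000049932649725b0000000000000000000000000000000000000000000000000000000000000000000000000125b925b92d000000000) (nat_lit 128)
    (DL.cons (nat_lit 0x7e0000000000000000000000000000000000004ccccc000000000000000000000000000000000000004993264800000000000000000000000000000000000092dc9400000000000000000000000000000000000125b924000000000000000000000000000000000000b92d80000) (nat_lit 64)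
    (DL.cons (nat_lit 0x400000000000000001cc0000000000000000004cc800000000000000000099300000000000000000004992000000000000000000017200000000000000000092d0000000000000000002e40000000000000000012580000000000000000001b8000000000000000000b900000000000000000039280) (nat_lit 32)
    (DL.cons (nat_lit 0x38000000018000000000c8000000004c0000000004800000000098000000000240000000004900000000012400000000014000000000580000000092000000000c00000000028000000000b000000001240000000038000000000180000000012800000000b0000000002c000000003800000000050) (nat_lit 16)
    (DL.cons (nat_lit 0x30000400010000480000800004000048000080000400004800009000010000020000240000480000900001000002000001000030000050000200009000008000080000900002000040000080000400010000010000300001000001000030000100000400008000080000280001000030000100000400008) (nat_lit 8)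
    (DL.cons (nat_lit 0x402000000001008040000080400000804000008040000080400000800001002000004020008040010080000100200000400100402000004000000100800000804000000080000000804020008020000001002001008020000100200100802000010020000100802000010020000100802000010020000100802) (nat_lit 4)
    (DL.cons (nat_lit 0x4020000040200000400040004000400040004000400040004000400000000020002040204000400000000020002040204000004020002040000020000000200040000040000040200040204000200040200020400000200000002040000020000000200040000020000000200040000020000000200040000020) (nat_lit 2)
    (DL.cons (nat_lit 0x80008000800080008000800080008000800080008000800080008000800080008000800080008000800080008000800080000080008000008080008000808000008000800000808000800080800000800080000080800080008000008080008000808000008080008000808000008080008000808000008080) (nat_lit 1)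
    DL.nil))))))))))⟩

theorem g12 : cG 12 cg12 bs12.dc = true := by decide +kernel
theorem w12_0 : rgC (cW 12 cg12 up12) 0 3 = true := by decide +kernel
theorem w12_4 : rgC (cW 12 cg12 up12) 4 8 = true := by decide +kernel
theorem w12_13 : rgC (cW 12 cg12 up12) 13 11 = true := by decide +kernel
theorem w12_25 : rgC (cW 12 cg12 up12) 25 11 = true := by decide +kernel
theorem w12_37 : rgC (cW 12 cg12 up12) 37 2 = true := by decide +kernel

theorem rW12 : Rg (cW 12 cg12 up12) 0 40 :=
  .cons 0 3 w12_0 <|
  .cons 4 8 w12_4 <|
  .cons 13 11 w12_13 <|
  .cons 25 11 w12_25 <|
  .cons 37 2 w12_37 <|
  .nil _ _

theorem tabW12 [Fact (Nat.Prime 3)] : TabW 12 cg12 bs12.dc bs12.up :=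
  tabW_of g12 rW12 (by decide +kernel)

end Vale.Agent.P236JB.Z
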