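import Vale.Agent.P236JB.Tab
import Vale.Agent.P236JB.Z.B13

/-!
# P236JB / C : checks of the tables of bytes (generated)
-/

set_option maxRecDepth 100000

namespace Vale.Agent.P236JB.Z

open Vale.Agent.P236KE Vale.Agent.P236JL

noncomputable def cg13 : CG := ⟨(nat_lit 116), (nat_lit 0x1f1e1d1c1b1a191818171716161515141413131212111110100f0f0f0e0e0e0d0d0d0c0c0c0b0b0b0a0a0a09090909090808080808080807070707070707060606060606060505050505050504040404040404030303030303030202020202020202010101010101010101000000000000000000),
  (nat_lit 0x1000100010001000100010001000100010002010002010002010002010002010002010003020100000403020101000004030201010000040302010100000403020101000004030201010000040302010100000504030201010000050403020201010000050403020201010000),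
  (nat_lit 0x1000000000100010000000001000100000000010001000000000100010000000001000100000000010001000000000001000100000000010001000100000000010001000100), (nat_lit 0),
  (DL.cons (nat_lit 0x1fe6666666664c900000000000000000000000000000000000000000) (nat_lit 512)
    (DL.cons (nat_lit 0x93264c992e4b725b92dc960000000000000000000) (nat_lit 256)
    (DL.cons (nat_lit 0x1fe400000000000000000000000000000000000000000000000000000000000000000000000000093264c992e4b00000000000000000000000000000000000000000000000000000000000000000000000000e4b725b925000000000) (nat_lit 128)
    (DL.cons (nat_lit 0x2666660000000000000000000000000000000000000093264c90000000000000000000000000000000000000725b90000000000000000000000000000000000000e4b700000000000000000000000000000000000000b92d80000) (nat_lit 64)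
    (DL.cons (nat_lit 0x1f00000000000000000266400000000000000000066400000000000000000009324000000000000000000092c0000000000000000007250000000000000000002d8000000000000000000e480000000000000000025b0000000000000000000b900000000000000000039280) (nat_lit 32)
    (DL.cons (nat_lit 0x1800000000c00000000260000000002400000000064000000002480000000009200000000024800000000090000000002480000000070000000000a000000000280000000049000000000c00000000034000000002500000000090000000000b0000000002c000000003800000000050) (nat_lit 16)
    (DL.cons (nat_lit 0x100004000080002000024000040000200002400004000020000240000480000900001000002000004000008000028000200000200004000020000080001000002000050000400000400008000240000300002000024000080000800002400008000080000280001000030000100000400008) (nat_lit 8)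
    (DL.cons (nat_lit 0x10080402000000000402000004020000040200000402000004020008040010080000100200000400000800001002000000040000100402000004000000100800000804000000080000000804020008020000001002001008020000100200100802000010020000100802000010020000100802) (nat_lit 4)
    (DL.cons (nat_lit 0x4020000040204020402040204020402040204020402040204000400000000020002040204000400000000020004020400020004020002040000020000000200040000040000040200040204000200040200020400000200000002040000020000000200040000020000000200040000020) (nat_lit 2)
    (DL.cons (nat_lit 0x800080008000800080008000800080008000800080008000800080008000800080008000800080008000800080800080008080000080008000008080008000808000008000800000808000800080800000800080000080800080008000008080008000808000008080008000808000008080) (nat_lit 1)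
    DL.nil))))))))))⟩

theorem g13 : cG 13 cg13 bs13.dc = true := by decide +kernel
theorem w13_0 : rgC (cW 13 cg13 up13) 0 3 = true := by decide +kernel
theorem w13_4 : rgC (cW 13 cg13 up13) 4 11 = true := by decide +kernel
theorem w13_16 : rgC (cW 13 cg13 up13) 16 11 = true := by decide +kernel
theorem w13_28 : rgC (cW 13 cg13 up13) 28 5 = true := by decide +kernel

theorem rW13 : Rg (cW 13 cg13 up13) 0 34 :=
  .cons 0 3 w13_0 <|
  .cons 4 11 w13_4 <|
  .cons 16 11 w13_16 <|
  .cons 28 5 w13_28 <|
  .nil _ _

theorem tabW13 [Fact (Nat.Prime 3)] : TabW 13 cg13 bs13.dc bs13.up :=
  tabW_of g13 rW13 (by decide +kernel)

end Vale.Agent.P236JB.Z
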