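import Vale.Agent.P236JB.Tab
import Vale.Agent.P236JB.Z.B14

/-!
# P236JB / C : checks of the tables of bytes (generated)
-/

set_option maxRecDepth 100000

namespace Vale.Agent.P236JB.Z

open Vale.Agent.P236KE Vale.Agent.P236JL

noncomputable def cg14 : CG := ⟨(nat_lit 107), (nat_lit 0x1c1b1a19181716161515141413131212111110100f0f0e0e0e0d0d0d0c0c0c0b0b0b0a0a0a09090909090808080808070707070707070606060606060605050505050505040404040404040303030303030302020202020202010101010101010101000000000000000000),
  (nat_lit 0x100010001000100010001000100010002010002010002010002010002010003020100000302010000040302010100000403020101000004030201010000040302010100000403020101000004030201010000050403020201010000050403020201010000),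
  (nat_lit 0x1000000000100000000010001000000000100010000000001000100000000010001000000000100010000000001000100000000010001000100000000010001000100), (nat_lit 0),
  (DL.cons (nat_lit 0x7f3333333200000000000000000000000000000000000000000) (nat_lit 512)
    (DL.cons (nat_lit 0x1264c993264b92e4b725b928000000000000000000) (nat_lit 256)
    (DL.cons (nat_lit 0x40000000000000000000000000000000000000000000000000000000000000000000000001264c993264b9000000000000000000000000000000000000000000000000000000000000000000000000005c96e4b725000000000) (nat_lit 128)
    (DL.cons (nat_lit 0x3f3300000000000000000000000000000000000001264c99000000000000000000000000000000000000002e4b700000000000000000000000000000000000005c96c0000000000000000000000000000000000000b92d80000) (nat_lit 64)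
    (DL.cons (nat_lit 0x3e0000000000000000003330000000000000000001264800000000000000000032640000000000000000002e480000000000000000025a0000000000000000005c90000000000000000024b4000000000000000000b900000000000000000039280) (nat_lit 32)
    (DL.cons (nat_lit 0x3800000001300000000032000000000300000000012400000000049000000000320000000000b0000000002c0000000003000000000250000000019000000000580000000006000000002480000000030000000000b0000000002c000000003800000000050) (nat_lit 16)
    (DL.cons (nat_lit 0x300004000100000200003000010000020000300001000002000004000008000030000040000080000800002800020000020000400002000008000100000200005000040000040000800024000030000200002400008000080000280001000030000100000400008) (nat_lit 8)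
    (DL.cons (nat_lit 0x4020000000010020000100200001002000010020000100200000400000800001002000004020008020000100200000004000010040200000400000010080000080400000008000000080402000802000000100200100802000010020000100802000010020000100802) (nat_lit 4)
    (DL.cons (nat_lit 0x40200000402000200020002000200020002000200020002040204000400000000020002040204000200000002000402040002000402000204000002000000020004000004000004020004020400020004020002040000020000000200040000020000000200040000020) (nat_lit 2)
    (DL.cons (nat_lit 0x800080008000800080008000800080008000800080008000800080008000800080008000800080800080008080008000808000008000800000808000800080800000800080000080800080008080000080008000008080008000808000008080008000808000008080) (nat_lit 1)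
    DL.nil))))))))))⟩

theorem g14 : cG 14 cg14 bs14.dc = true := by decide +kernel
theorem w14_0 : rgC (cW 14 cg14 up14) 0 5 = true := by decide +kernel
theorem w14_6 : rgC (cW 14 cg14 up14) 6 11 = true := by decide +kernel
theorem w14_18 : rgC (cW 14 cg14 up14) 18 11 = true := by decide +kernel
theorem w14_30 : rgC (cW 14 cg14 up14) 30 1 = true := by decide +kernel

theorem rW14 : Rg (cW 14 cg14 up14) 0 32 :=
  .cons 0 5 w14_0 <|
  .cons 6 11 w14_6 <|
  .cons 18 11 w14_18 <|
  .cons 30 1 w14_30 <|
  .nil _ _

theorem tabW14 [Fact (Nat.Prime 3)] : TabW 14 cg14 bs14.dc bs14.up :=
  tabW_of g14 rW14 (by decide +kernel)

end Vale.Agent.P236JB.Z
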