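import Vale.Agent.P236JB.Tab
import Vale.Agent.P236JB.Z.B15

/-!
# P236JB / C : checks of the tables of bytes (generated)
-/

set_option maxRecDepth 100000

namespace Vale.Agent.P236JB.Z

open Vale.Agent.P236KE Vale.Agent.P236JL

noncomputable def cg15 : CG := ⟨(nat_lit 99), (nat_lit 0x191817161515141413131212111110100f0f0e0e0d0d0d0c0c0c0b0b0b0a0a0a09090909090808080808070707070707060606060606060505050505050504040404040404030303030303030202020202020201010101010101000000000000000000),
  (nat_lit 0x100010001000100010001000100010002010002010002010002010003020100000302010000040302010000040302010100000403020101000004030201010000040302010100000403020101000004030201010000050403020201010000),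
  (nat_lit 0x1000000000100000000000100000000010001000000000100010000000001000100000000010001000000000100010000000001000100000000010001000100), (nat_lit 0),
  (DL.cons (nat_lit 0x7ccccc800000000000000000000000000000000000000000) (nat_lit 512)
    (DL.cons (nat_lit 0x4ccc993264c9725c92e4b720000000000000000000) (nat_lit 256)
    (DL.cons (nat_lit 0x4ccc993264c94000000000000000000000000000000000000000000000000000000000000000000000000005b92dc96e4000000000) (nat_lit 128)
    (DL.cons (nat_lit 0x700000000000000000000000000000000000004ccc9900000000000000000000000000000000000000325c9280000000000000000000000000000000000005b92d0000000000000000000000000000000000000b72580000) (nat_lit 64)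
    (DL.cons (nat_lit 0xcc80000000000000000004cc00000000000000000003260000000000000000000325000000000000000000064a0000000000000000005b0000000000000000000c94000000000000000000b600000000000000000039280) (nat_lit 32)
    (DL.cons (nat_lit 0x400000000c8000000004c00000000048000000000c8000000000300000000004c00000000030000000000c8000000000600000000014000000000580000000092000000000c00000000028000000000b00000000124000000003800000000050) (nat_lit 16)
    (DL.cons (nat_lit 0x200008000040000480000800004000048000080000100000200002400004800009000020000240000800001000004000048000100003000005000020000900000800008000090000200004000008000040001000001000030000100000400008) (nat_lit 8)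
    (DL.cons (nat_lit 0x100804000008040000080400000804000008040010080000100200000400000800000010020010080400100200000004000010040200000400000010080000080400000008000000080402000802000000100200100802000010020000100802) (nat_lit 4)
    (DL.cons (nat_lit 0x4020000040004000400040004000400040004000400000000020002040204000400000402000204000004000002000402040002000402000204000002000000020004000004000004020004020400020004020002040000020000000200040000020) (nat_lit 2)
    (DL.cons (nat_lit 0x80008000800080008000800080008000800080008000800080008000800080008000008000800000800080008080008000808000008000800000808000800080800000800080000080800080008080000080008000008080008000808000008080) (nat_lit 1)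
    DL.nil))))))))))⟩

theorem g15 : cG 15 cg15 bs15.dc = true := by decide +kernel
theorem w15_0 : rgC (cW 15 cg15 up15) 0 6 = true := by decide +kernel
theorem w15_7 : rgC (cW 15 cg15 up15) 7 11 = true := by decide +kernel
theorem w15_19 : rgC (cW 15 cg15 up15) 19 9 = true := by decide +kernel

theorem rW15 : Rg (cW 15 cg15 up15) 0 29 :=
  .cons 0 6 w15_0 <|
  .cons 7 11 w15_7 <|
  .cons 19 9 w15_19 <|
  .nil _ _

theorem tabW15 [Fact (Nat.Prime 3)] : TabW 15 cg15 bs15.dc bs15.up :=
  tabW_of g15 rW15 (by decide +kernel)

end Vale.Agent.P236JB.Z
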