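import Vale.Agent.P236JB.Tab
import Vale.Agent.P236JB.Z.B16

/-!
# P236JB / C : checks of the tables of bytes (generated)
-/

set_option maxRecDepth 100000

namespace Vale.Agent.P236JB.Z

open Vale.Agent.P236KE Vale.Agent.P236JL

noncomputable def cg16 : CG := ⟨(nat_lit 93), (nat_lit 0x17161515141413131212111110100f0f0e0e0d0d0c0c0c0b0b0b0a0a0a09090909090808080808070707070706060606060605050505050505040404040404040303030303030302020202020202010101010101010000000000000000),
  (nat_lit 0x1000100010001000100010001000100010002010002010002010003020100000302010000030201000004030201000004030201010000040302010100000403020101000004030201010000040302010100000504030201010000),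
  (nat_lit 0x1000000000100000000010000000000010000000001000100000000010001000000000100010000000001000100000000010001000000000001000100), (nat_lit 0),
  (DL.cons (nat_lit 0x7330000000000000000000000000000000000000000000) (nat_lit 512)
    (DL.cons (nat_lit 0x3333333264c992e4b92e49700000000000000000000) (nat_lit 256)
    (DL.cons (nat_lit 0x3333333264c900000000000000000000000000000000000000000000000000000000000000000000000000025b92dc96c0000000000) (nat_lit 128)
    (DL.cons (nat_lit 0x3333320000000000000000000000000000000000000092e4b8000000000000000000000000000000000000025b9280000000000000000000000000000000000024b72500000) (nat_lit 64)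
    (DL.cons (nat_lit 0x60000000000000000003330000000000000000001324000000000000000000092c00000000000000000012e000000000000000000025a0000000000000000005c90000000000000000024b4000000000000000000b9000) (nat_lit 32)
    (DL.cons (nat_lit 0x13000000000320000000003000000000130000000002480000000009200000000248000000001280000000049000000000250000000019000000000580000000006000000002480000000030000000000b000000000250) (nat_lit 16)
    (DL.cons (nat_lit 0x40001000002000030000100000200003000010000020000240000480000900000800024000030000100000400004800004000020000080001000002000050000400000400008000240000300002000024000080000800002400008) (nat_lit 8)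
    (DL.cons (nat_lit 0x100200001002000010020000100200001002000004020008040010080000080402000802000010020000000400100402000004000000100800000804000000080000000804020008020000001002001008020000100200100802) (nat_lit 4)
    (DL.cons (nat_lit 0x4020002000200020002000200020002000200020002040204000400000000020004020400020000000200040204000004020002040000020000000200040000040000040200040204000200040200020400000200000002040000020) (nat_lit 2)
    (DL.cons (nat_lit 0x80008000800080008000800080008000800080008000800080008000800080800080008080008000808000800080000080008000008080008000808000008000800000808000800080800000800080000080800080008000008080) (nat_lit 1)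
    DL.nil))))))))))⟩

theorem g16 : cG 16 cg16 bs16.dc = true := by decide +kernel
theorem w16_0 : rgC (cW 16 cg16 up16) 0 8 = true := by decide +kernel
theorem w16_9 : rgC (cW 16 cg16 up16) 9 11 = true := by decide +kernel
theorem w16_21 : rgC (cW 16 cg16 up16) 21 4 = true := by decide +kernel

theorem rW16 : Rg (cW 16 cg16 up16) 0 26 :=
  .cons 0 8 w16_0 <|
  .cons 9 11 w16_9 <|
  .cons 21 4 w16_21 <|
  .nil _ _

theorem tabW16 [Fact (Nat.Prime 3)] : TabW 16 cg16 bs16.dc bs16.up :=
  tabW_of g16 rW16 (by decide +kernel)

end Vale.Agent.P236JB.Z
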