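import Vale.Agent.P236JB.Tab
import Vale.Agent.P236JB.Z.B17

/-!
# P236JB / C : checks of the tables of bytes (generated)
-/

set_option maxRecDepth 100000

namespace Vale.Agent.P236JB.Z

open Vale.Agent.P236KE Vale.Agent.P236JL

noncomputable def cg17 : CG := ⟨(nat_lit 90), (nat_lit 0x171615141413131212111110100f0f0e0e0d0d0c0c0c0b0b0b0a0a0a0909090909080808080807070707070606060606050505050505050404040404040403030303030303020202020202020101010101010100000000000000),
  (nat_lit 0x10001000100010001000100010001000201000201000201000302010000030201000003020100000302010000040302010100000403020101000004030201010000040302010100000403020101000004030201010000),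
  (nat_lit 0x100000000010000000001000000000100000000010001000000000100010000000001000100000000010001000000000100010000000001000100), (nat_lit 0),
  (DL.cons (nat_lit 0x3c800000000000000000000000000000000000000000) (nat_lit 512)
    (DL.cons (nat_lit 0x4ccccccc993264b92e4b92c0000000000000000000) (nat_lit 256)
    (DL.cons (nat_lit 0x4ccccccc99300000000000000000000000000000000000000000000000000000000000000000000000000024b725b92d8000000000) (nat_lit 128)
    (DL.cons (nat_lit 0x4cccc80000000000000000000000000000000000000264b92800000000000000000000000000000000000024b725000000000000000000000000000000000000496e480000) (nat_lit 64)
    (DL.cons (nat_lit 0x4cc0000000000000000004cc8000000000000000000264a00000000000000000064b00000000000000000024b0000000000000000000b900000000000000000049600000000000000000037000) (nat_lit 32)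
    (DL.cons (nat_lit 0x300000000048000000000c8000000004c0000000001900000000026000000000190000000006400000000090000000002480000000070000000000a000000000280000000049000000000c0000000003400000000250) (nat_lit 16)
    (DL.cons (nat_lit 0x20000800004000048000080000400004800008000010000020000240000480001000002000040000080000800002800020000020000400002000008000100000200005000040000040000800024000030000200002400008) (nat_lit 8)
    (DL.cons (nat_lit 0x10080400000804000008040000080400000804001008000010020000040000100800000804020008020000100200000004000010040200000400000010080000080400000008000000080402000802000000100200100802) (nat_lit 4)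
    (DL.cons (nat_lit 0x2000004000400040004000400040004000400040000000002000204020400020000000200040204000200000002000402040002000402000204000002000000020004000004000004020004020400020004020002040000020) (nat_lit 2)
    (DL.cons (nat_lit 0x8000800080008000800080008000800080008000800080008000800080008080008000808000800080800080008080008000808000008000800000808000800080800000800080000080800080008080000080008000008080) (nat_lit 1)
    DL.nil))))))))))⟩

theorem g17 : cG 17 cg17 bs17.dc = true := by decide +kernel
theorem w17_0 : rgC (cW 17 cg17 up17) 0 11 = true := by decide +kernel
theorem w17_12 : rgC (cW 17 cg17 up17) 12 11 = true := by decide +kernel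

theorem rW17 : Rg (cW 17 cg17 up17) 0 24 :=
  .cons 0 11 w17_0 <|
  .cons 12 11 w17_12 <|
  .nil _ _

theorem tabW17 [Fact (Nat.Prime 3)] : TabW 17 cg17 bs17.dc bs17.up :=
  tabW_of g17 rW17 (by decide +kernel)

end Vale.Agent.P236JB.Z
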